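import Vale.Agent.P237.Quant.TailData.N26.tailN26N0Part0
import Vale.Agent.P237.Quant.TailData.N26.tailN26N0Part1
import Vale.Agent.P237.Quant.TailData.N26.tailN26N0Part2

/-!
Tail calibration tailN26N0 in dimension 26. The check. Generated data, checked by the kernel.
-/

set_option maxRecDepth 100000
set_option linter.all false

namespace Vale.Agent.P237.Quant.TailData

open TailCert


/-- The calibration. -/
noncomputable def tailN26N0 : Cfg :=
  tailN26N0Base.withIvals (List.flatten [tailN26N0L0, tailN26N0L1, tailN26N0L2, tailN26N0L3, tailN26N0L4, tailN26N0L5, tailN26N0L6, tailN26N0L7, tailN26N0L8, tailN26N0L9, tailN26N0L10, tailN26N0L11])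

theorem tailN26N0_parts : [tailN26N0L0, tailN26N0L1, tailN26N0L2, tailN26N0L3, tailN26N0L4, tailN26N0L5, tailN26N0L6, tailN26N0L7, tailN26N0L8, tailN26N0L9, tailN26N0L10, tailN26N0L11].Forall fun l => tailN26N0Base.partUsed tailN26N0Used l = true := by
  simp only [List.forall_cons, List.Forall]
  exact ⟨tailN26N0L0_ok, tailN26N0L1_ok, tailN26N0L2_ok, tailN26N0L3_ok, tailN26N0L4_ok, tailN26N0L5_ok, tailN26N0L6_ok, tailN26N0L7_ok, tailN26N0L8_ok, tailN26N0L9_ok, tailN26N0L10_ok, tailN26N0L11_ok⟩

theorem tailN26N0_check : tailN26N0.check = true :=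
  Cfg.check_of_parts (by decide +kernel) tailN26N0_parts

end Vale.Agent.P237.Quant.TailData
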