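import Vale.Agent.P237.Quant.TailPartsLink
import Vale.Agent.P237.Quant.RowTables
import Vale.Agent.P237.Quant.EnvelopeTableData.N26
import Vale.Agent.P237.Quant.TailData.N26.tailN26P0
import Vale.Agent.P237.Quant.TailData.N26.tailN26P1
import Vale.Agent.P237.Quant.TailData.N26.tailN26P2
import Vale.Agent.P237.Quant.TailData.N26.tailN26P3
import Vale.Agent.P237.Quant.TailData.N26.tailN26N0
import Vale.Agent.P237.Quant.TailData.N26.tailN26N1

/-!
The tail inequalities of the rows of both sides in dimension 26. Generated.
-/

namespace Vale.Agent.P237.Quant

open TailCert TailData

/-- The tail inequalities of `negRow14` in dimension 26. -/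
theorem negRow14_tailAt26 : negRow14.TailAt 25 := by
  intro P hP
  simp only [negRow14, binsOf, List.mem_cons, List.not_mem_nil, or_false] at hP
  rcases hP with rfl | rfl
  · exact tailBin_negParts tailN26N0_check tailN26N0_parts envTable26_check (by decide +kernel)
  · exact tailBin_negParts tailN26N1_check tailN26N1_parts envTable26_check (by decide +kernel)

/-- The tail inequalities of `posRow25` in dimension 26. -/
theorem posRow25_tailAt26 : posRow25.TailAt 25 := by
  intro P hP
  simp only [posRow25, posRowA, posCuts14, posCuts16, binsOf, List.mem_cons, List.not_mem_nil, or_false] at hP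
  rcases hP with rfl | rfl | rfl | rfl
  · exact tailBin_posParts tailN26P0_check tailN26P0_parts envTable26_check (by decide +kernel)
  · exact tailBin_posParts tailN26P1_check tailN26P1_parts envTable26_check (by decide +kernel)
  · exact tailBin_posParts tailN26P2_check tailN26P2_parts envTable26_check (by decide +kernel)
  · exact tailBin_posParts tailN26P3_check tailN26P3_parts envTable26_check (by decide +kernel)

end Vale.Agent.P237.Quant
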